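import Vale.Agent.P146.U.H94.HRowN
import Vale.Agent.P146.H604.HTou

/-!
R1, the h-row: the touch of the norm `√(fr A / n)` (Poincare inequality in the rows) is bounded by
the rate.
-/

open MeasureTheory ProbabilityTheory

namespace Vale.Agent.P146.U.H94

open Vale.Agent.P157.Lv Vale.Agent.P146.H425 Vale.Agent.P146.H332 Vale.Agent.P146.H325
  Vale.Agent.P146.H712 Vale.Agent.P146.H816 Vale.Agent.P146.H604 Vale.Agent.P146.R1
  Vale.Agent.P146.R1C Matrix

set_option linter.unusedSectionVars false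

variable {n : ℕ}

lemma eg_sqrt {ι : Type} [Fintype ι] {f : (ι → ℝ) → ℝ} (hf : EG f) : EG fun z => √(f z) := by
  refine (hf.abs.add (EG.const 1)).mono hf.meas.sqrt fun z => ?_
  rw [abs_of_nonneg (Real.sqrt_nonneg _), abs_of_nonneg (by positivity)]
  refine (Real.sqrt_le_sqrt (le_abs_self (f z))).trans ?_
  rw [Real.sqrt_le_left (by positivity)]
  nlinarith [abs_nonneg (f z)]

/-- the norm of a matrix, `√(fr A / n)` -/
noncomputable def Nn (A : (K4 (Pair n) → ℝ) → Matrix (Fin n) (Fin n) ℝ) (w : K4 (Pair n) → ℝ) : ℝ :=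
  √(fr (A w) / n)

lemma eg_Nn {A : (K4 (Pair n) → ℝ) → Matrix (Fin n) (Fin n) ℝ}
    (hA : ∀ i j, EG fun w => A w i j) : EG (Nn A) := eg_sqrt (eg_Zn hA)

lemma Nn_nonneg {A : (K4 (Pair n) → ℝ) → Matrix (Fin n) (Fin n) ℝ} (w : K4 (Pair n) → ℝ) :
    0 ≤ Nn A w := Real.sqrt_nonneg _

lemma Nn_sq {A : (K4 (Pair n) → ℝ) → Matrix (Fin n) (Fin n) ℝ} (w : K4 (Pair n) → ℝ) :
    Zn A w = Nn A w ^ 2 := by
  have h : 0 ≤ fr (A w) / n := Zn_nonneg w
  unfold Nn
  rw [Real.sq_sqrt h]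
  rfl

lemma fr_ge_diag {C : Matrix (Fin n) (Fin n) ℝ} (h : ∀ i, C i i = 1) : (n : ℝ) ≤ fr C := by
  unfold fr
  have h1 : ∀ i, (1 : ℝ) ≤ ∑ j, C i j ^ 2 := by
    intro i
    have := Finset.single_le_sum (f := fun j => C i j ^ 2) (fun j _ => sq_nonneg _)
      (Finset.mem_univ i)
    simp only [h, one_pow] at this
    exact this
  calc (n : ℝ) = ∑ _i : Fin n, (1 : ℝ) := by simp
    _ ≤ _ := Finset.sum_le_sum fun i _ => h1 i

variable {C : (Pair n → ℝ) → Matrix (Fin n) (Fin n) ℝ}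
  {E : Pair n → (Pair n → ℝ) → Matrix (Fin n) (Fin n) ℝ} {R : Finset (Pair n)}

/-- **The touch of `√(fr C / n)`** for a matrix of functions of a position. -/
theorem touch_Nn (c : Fin 4 → ℝ) (hn : 0 < n) (hC : ∀ i j, EG fun z => C z i j)
    (hE : ∀ e i j, EG fun z => E e z i j)
    (hd : ∀ e i j, PD e (fun z => C z i j) (fun z => E e z i j)) (h1 : ∀ z i, C z i i = 1)
    {φ : (K4 (Pair n) → ℝ) → ℝ} (hφ : EG φ) (h0 : ∀ w, 0 ≤ φ w) (hi : Ind (lf R) φ) :
    ∫ w, φ w * (Nn (fun w => C (H712.lp c w)) w - Av (lf R) (Nn fun w => C (H712.lp c w)) w) ^ 2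
        ∂(gI (K4 (Pair n))) ≤
      (c 0 ^ 2 + c 1 ^ 2 + c 2 ^ 2 + c 3 ^ 2) / n *
        ∫ w, φ w * ∑ e ∈ R, fr (E e (H712.lp c w)) ∂(gI (K4 (Pair n))) := by
  have hn0 : (0 : ℝ) < n := by exact_mod_cast hn
  have hfr1 : ∀ z, 1 ≤ fr (C z) / n := fun z => by
    rw [le_div_iff₀ hn0, one_mul]
    exact fr_ge_diag (h1 z)
  have hsq1 : ∀ z, 1 ≤ √(fr (C z) / n) := fun z => Real.one_le_sqrt.2 (hfr1 z)
  have hCl : ∀ i j, EG fun w : K4 (Pair n) → ℝ => C (H712.lp c w) i j := fun i j => eg_lp c (hC i j)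
  have hEl : ∀ e i j, EG fun w : K4 (Pair n) → ℝ => E e (H712.lp c w) i j :=
    fun e i j => eg_lp c (hE e i j)
  have hg : ∀ e, EG fun z => ip (C z) (E e z) := by
    intro e
    unfold ip
    exact EG.sum _ fun i _ => EG.sum _ fun j _ => (hC i j).mul (hE e i j)
  have hfrC : EG fun z => fr (C z) / n := by
    have h : EG fun z => (n : ℝ)⁻¹ * fr (C z) := by
      refine EG.const_mul _ ?_
      unfold fr
      exact EG.sum _ fun i _ => EG.sum _ fun j _ => (hC i j).pow 2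
    simpa only [div_eq_inv_mul] using h
  -- the derivative
  have hG : ∀ e, EG fun z => (n : ℝ)⁻¹ * (2 * ip (C z) (E e z)) / (2 * √(fr (C z) / n)) := by
    intro e
    have hm : EG fun z => (n : ℝ)⁻¹ * (2 * ip (C z) (E e z)) := ((hg e).const_mul 2).const_mul _
    refine hm.mono (hm.meas.div ((eg_sqrt hfrC).meas.const_mul 2)) fun z => ?_
    rw [abs_div]
    refine div_le_self (abs_nonneg _) ?_
    have := hsq1 z
    rw [abs_of_nonneg (by positivity)]
    linarith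
  have hpd0 : ∀ e, PD e (fun z => √(fr (C z) / n))
      (fun z => (n : ℝ)⁻¹ * (2 * ip (C z) (E e z)) / (2 * √(fr (C z) / n))) := by
    intro e
    have h2 : PD e (fun z => fr (C z)) (fun z => 2 * ip (C z) (E e z)) := by
      have h3 : PD e (fun z => ∑ i, ∑ l, C z i l * C z i l)
          (fun z => ∑ i, ∑ l, (E e z i l * C z i l + C z i l * E e z i l)) :=
        PD.sum _ fun i _ => PD.sum _ fun l _ => (hd e i l).mul (hd e i l)
      have e1 : (fun z => fr (C z)) = fun z => ∑ i, ∑ l, C z i l * C z i l := by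
        funext z
        unfold fr
        exact Finset.sum_congr rfl fun i _ => Finset.sum_congr rfl fun l _ => sq _
      rw [e1]
      refine h3.congr fun z => ?_
      unfold ip
      rw [Finset.mul_sum]
      refine Finset.sum_congr rfl fun i _ => ?_
      rw [Finset.mul_sum]
      exact Finset.sum_congr rfl fun l _ => by ring
    have h4 : PD e (fun z => (n : ℝ)⁻¹ * fr (C z))
        (fun z => (n : ℝ)⁻¹ * (2 * ip (C z) (E e z))) := h2.const_mul _
    have e2 : (fun z => fr (C z) / n) = fun z => (n : ℝ)⁻¹ * fr (C z) := by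
      funext z
      rw [div_eq_inv_mul]
    intro y x
    have h5 := h4 y x
    have h6 : fr (C (Function.update y e x)) / n = (n : ℝ)⁻¹ * fr (C (Function.update y e x)) :=
      congrFun e2 _
    have h7 : (n : ℝ)⁻¹ * fr (C (Function.update y e x)) ≠ 0 := by
      rw [← h6]
      have := hfr1 (Function.update y e x)
      positivity
    have h8 := h5.sqrt h7
    have e3 : (fun t => √(fr (C (Function.update y e t)) / n)) =
        fun t => √((n : ℝ)⁻¹ * fr (C (Function.update y e t))) := by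
      funext t
      rw [div_eq_inv_mul]
    show HasDerivAt (fun t => √(fr (C (Function.update y e t)) / n))
      ((n : ℝ)⁻¹ * (2 * ip (C (Function.update y e x)) (E e (Function.update y e x))) /
        (2 * √(fr (C (Function.update y e x)) / n))) x
    rw [e3, h6]
    exact h8
  have hF' : ∀ j : K4 (Pair n), EG fun w : K4 (Pair n) → ℝ =>
      c (bl j) * ((n : ℝ)⁻¹ * (2 * ip (C (H712.lp c w)) (E (bs j) (H712.lp c w))) /
        (2 * √(fr (C (H712.lp c w)) / n))) := fun j =>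
    (eg_lp c (hG (bs j))).const_mul _
  have hpd : ∀ j ∈ lf R, PD j (Nn fun w => C (H712.lp c w)) (fun w : K4 (Pair n) → ℝ =>
      c (bl j) * ((n : ℝ)⁻¹ * (2 * ip (C (H712.lp c w)) (E (bs j) (H712.lp c w))) /
        (2 * √(fr (C (H712.lp c w)) / n)))) := fun j _ => pd_lp c (hpd0 (bs j))
  have k1 := weighted_poincare hφ hi h0 (eg_Nn hCl) hpd (fun j _ => hF' j)
  refine k1.trans ?_
  rw [← integral_const_mul]
  have hfr : ∀ e, EG fun w : K4 (Pair n) → ℝ => fr (E e (H712.lp c w)) := fun e =>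
    R1C.eg_fr (hEl e)
  refine integral_mono (hφ.mul (EG.sum _ fun j _ => (hF' j).pow 2)).integrable
    ((hφ.mul (EG.sum R fun e _ => hfr e)).const_mul _).integrable fun w => ?_
  show φ w * ∑ j ∈ lf R, (c (bl j) * ((n : ℝ)⁻¹ * (2 * ip (C (H712.lp c w))
    (E (bs j) (H712.lp c w))) / (2 * √(fr (C (H712.lp c w)) / n)))) ^ 2 ≤
      (c 0 ^ 2 + c 1 ^ 2 + c 2 ^ 2 + c 3 ^ 2) / n *
      (φ w * ∑ e ∈ R, fr (E e (H712.lp c w)))
  rw [sum_lp_sq c R fun e => (n : ℝ)⁻¹ * (2 * ip (C (H712.lp c w)) (E e (H712.lp c w))) /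
    (2 * √(fr (C (H712.lp c w)) / n))]
  have h2 : ∑ e ∈ R, ((n : ℝ)⁻¹ * (2 * ip (C (H712.lp c w)) (E e (H712.lp c w))) /
      (2 * √(fr (C (H712.lp c w)) / n))) ^ 2 ≤ 1 / n * ∑ e ∈ R, fr (E e (H712.lp c w)) := by
    rw [Finset.mul_sum]
    refine Finset.sum_le_sum fun e _ => ?_
    have h3 : ip (C (H712.lp c w)) (E e (H712.lp c w)) ^ 2 ≤
        fr (C (H712.lp c w)) * fr (E e (H712.lp c w)) := by
      have h4 := pow_le_pow_left₀ (abs_nonneg _)
        (H522.ip_le_nf (C (H712.lp c w)) (E e (H712.lp c w))) 2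
      rw [sq_abs, mul_pow] at h4
      unfold H522.nf at h4
      rwa [Real.sq_sqrt (H332.fr_nonneg _), Real.sq_sqrt (H332.fr_nonneg _)] at h4
    have hf1 := hfr1 (H712.lp c w)
    have hf0 : 0 < fr (C (H712.lp c w)) / n := by linarith
    have hf2 : 0 < fr (C (H712.lp c w)) := by
      have := mul_pos hf0 hn0
      rwa [div_mul_cancel₀ _ hn0.ne'] at this
    have h5 : ((n : ℝ)⁻¹ * (2 * ip (C (H712.lp c w)) (E e (H712.lp c w))) /
        (2 * √(fr (C (H712.lp c w)) / n))) ^ 2 =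
        ip (C (H712.lp c w)) (E e (H712.lp c w)) ^ 2 / (n * fr (C (H712.lp c w))) := by
      rw [div_pow, mul_pow, mul_pow, mul_pow, Real.sq_sqrt hf0.le]
      field_simp
    rw [h5, div_le_iff₀ (by positivity)]
    calc ip (C (H712.lp c w)) (E e (H712.lp c w)) ^ 2
        ≤ fr (C (H712.lp c w)) * fr (E e (H712.lp c w)) := h3
      _ = 1 / n * fr (E e (H712.lp c w)) * (n * fr (C (H712.lp c w))) := by
          field_simp
  have h6 : 0 ≤ c 0 ^ 2 + c 1 ^ 2 + c 2 ^ 2 + c 3 ^ 2 := by positivity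
  have h7 := mul_le_mul_of_nonneg_left (mul_le_mul_of_nonneg_left h2 h6) (h0 w)
  refine h7.trans (le_of_eq ?_)
  ring

end Vale.Agent.P146.U.H94
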