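import Vale.Agent.P146.H816.SkN0

/-!
R1, block C: the numbers of the h-row with the norm.
-/

open MeasureTheory ProbabilityTheory

namespace Vale.Agent.P146.U.H94

open Vale.Agent.P146.R1C

/-- the constant of the h-row -/
noncomputable def Hn (β : ℝ) : ℝ :=
  202560 * (1 + 1 / β ^ 2) ^ 3 * β ^ 6 + 19200 * (1 + 1 / β ^ 2) ^ 2 * β ^ 3

lemma Hn_nonneg {β : ℝ} (hβ : 0 ≤ β) : 0 ≤ Hn β := by
  unfold Hn
  positivity

/-- **The sum of the errors of the h-row.** -/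
lemma hnumN {n β A N x k y T g m4 : ℝ} (hn : 0 < n) (hβ : 0 < β) (hA : 1 ≤ A) (hN : 0 < N)
    (hx : 0 ≤ x) (hk : k ^ 2 * n = β ^ 2) (hk0 : 0 ≤ k) (hT : 0 < T)
    (hy : k ^ 2 * (A * N) = y) (hg : g = 1 + 1 / β ^ 2) (hm : m4 ≤ 4 ^ 4 * y ^ 2) :
    4 * (n ^ 2 * (6 * x * k * √(√m4) * √(4449608 * (g * y) ^ 4))) +
        8 * (n * √(48884 * (g * y) ^ 3 * (52 * (A * N / T)))) +
        4 * (n * √(48884 * (g * y) ^ 3 * (9 * (A * N / T)))) ≤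
      Hn β * A ^ 3 * (x * (√N / n) * N ^ 2 + N ^ 2 / √(n * T)) := by
  have hg1 : 1 ≤ g := by
    rw [hg]
    have : 0 ≤ 1 / β ^ 2 := by positivity
    linarith
  have hy0 : 0 ≤ y := by rw [← hy]; positivity
  have e1 : √(4449608 * (g * y) ^ 4) ≤ 2110 * g ^ 2 * y ^ 2 := by
    rw [Real.sqrt_le_left (by positivity)]
    have : 0 ≤ (g * y) ^ 4 := by positivity
    nlinarith
  have e2 : √(√m4) ≤ 4 * √y := by
    have h1 : √m4 ≤ 4 ^ 2 * y := by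
      rw [Real.sqrt_le_left (by positivity)]
      calc m4 ≤ 4 ^ 4 * y ^ 2 := hm
        _ = (4 ^ 2 * y) ^ 2 := by ring
    refine (Real.sqrt_le_sqrt h1).trans (le_of_eq ?_)
    rw [Real.sqrt_mul (by norm_num), Real.sqrt_sq (by norm_num)]
  have t1 : n ^ 2 * (6 * x * k * √(√m4) * √(4449608 * (g * y) ^ 4)) ≤
      50640 * g ^ 2 * (β ^ 6 * A ^ 3 * (x * (√N / n) * N ^ 2)) := by
    calc n ^ 2 * (6 * x * k * √(√m4) * √(4449608 * (g * y) ^ 4))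
        ≤ n ^ 2 * (6 * x * k * (4 * √y) * (2110 * g ^ 2 * y ^ 2)) := by gcongr
      _ = 50640 * g ^ 2 * (n ^ 2 * (x * (k * √y) * y ^ 2)) := by ring
      _ ≤ _ := mul_le_mul_of_nonneg_left (num_ls hn hβ hA hx hk hk0 hy) (by positivity)
  have t2 : n * √(48884 * (g * y) ^ 3 * (52 * (A * N / T))) ≤
      1600 * g ^ 2 * (β ^ 3 * A ^ 2 * (N ^ 2 / √(n * T))) := by
    have h1 : √(48884 * (g * y) ^ 3 * (52 * (A * N / T))) ≤
        1600 * g ^ 2 * √(y ^ 3 * (A * N / T)) := by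
      have h2 : 1600 * g ^ 2 * √(y ^ 3 * (A * N / T)) =
          √((1600 * g ^ 2) ^ 2 * (y ^ 3 * (A * N / T))) := by
        rw [Real.sqrt_mul (sq_nonneg _), Real.sqrt_sq (by positivity)]
      rw [h2]
      refine Real.sqrt_le_sqrt ?_
      have h3 : 0 ≤ y ^ 3 * (A * N / T) := by positivity
      have h4 : 48884 * 52 * g ^ 3 ≤ (1600 * g ^ 2) ^ 2 := by
        have : g ^ 3 ≤ g ^ 4 := pow_le_pow_right₀ hg1 (by norm_num)
        have : 0 ≤ g ^ 4 := by positivity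
        nlinarith
      calc 48884 * (g * y) ^ 3 * (52 * (A * N / T)) =
            48884 * 52 * g ^ 3 * (y ^ 3 * (A * N / T)) := by ring
        _ ≤ _ := mul_le_mul_of_nonneg_right h4 h3
    calc n * √(48884 * (g * y) ^ 3 * (52 * (A * N / T)))
        ≤ n * (1600 * g ^ 2 * √(y ^ 3 * (A * N / T))) := mul_le_mul_of_nonneg_left h1 hn.le
      _ = 1600 * g ^ 2 * (n * √(y ^ 3 * (A * N / T))) := by ring
      _ = _ := by rw [num_dl hn hβ hA hk hT hy]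
  have t3 : n * √(48884 * (g * y) ^ 3 * (9 * (A * N / T))) ≤
      1600 * g ^ 2 * (β ^ 3 * A ^ 2 * (N ^ 2 / √(n * T))) := by
    refine le_trans (mul_le_mul_of_nonneg_left (Real.sqrt_le_sqrt ?_) hn.le) t2
    have h1 : 0 ≤ A * N / T := by positivity
    have h2 : 0 ≤ 48884 * (g * y) ^ 3 := by positivity
    exact mul_le_mul_of_nonneg_left (by linarith) h2
  have hA0 : 0 < A := by linarith
  obtain ⟨X1, hX1⟩ : ∃ X1, X1 = x * (√N / n) * N ^ 2 := ⟨_, rfl⟩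
  obtain ⟨X2, hX2⟩ : ∃ X2, X2 = N ^ 2 / √(n * T) := ⟨_, rfl⟩
  have hX10 : 0 ≤ X1 := by rw [hX1]; positivity
  have hX20 : 0 ≤ X2 := by rw [hX2]; positivity
  rw [← hX1] at t1 ⊢
  rw [← hX2] at t2 t3 ⊢
  have hA23 : A ^ 2 ≤ A ^ 3 := pow_le_pow_right₀ hA (by norm_num)
  have s1 : 4 * (50640 * g ^ 2 * (β ^ 6 * A ^ 3 * X1)) ≤ 202560 * g ^ 3 * β ^ 6 * A ^ 3 * X1 := by
    have h1 : g ^ 2 ≤ g ^ 3 := pow_le_pow_right₀ hg1 (by norm_num)
    have h2 : 0 ≤ 202560 * (β ^ 6 * A ^ 3 * X1) := by positivity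
    have h3 := mul_le_mul_of_nonneg_left h1 h2
    linarith
  have s2 : 12 * (1600 * g ^ 2 * (β ^ 3 * A ^ 2 * X2)) ≤ 19200 * g ^ 2 * β ^ 3 * A ^ 3 * X2 := by
    have h2 : 0 ≤ 19200 * g ^ 2 * β ^ 3 * X2 := by positivity
    have h3 := mul_le_mul_of_nonneg_left hA23 h2
    linarith
  have s4 : Hn β * A ^ 3 * (X1 + X2) =
      202560 * g ^ 3 * β ^ 6 * A ^ 3 * X1 + 19200 * g ^ 2 * β ^ 3 * A ^ 3 * X2 +
        (202560 * g ^ 3 * β ^ 6 * A ^ 3 * X2 + 19200 * g ^ 2 * β ^ 3 * A ^ 3 * X1) := by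
    unfold Hn
    rw [← hg]
    ring
  rw [s4]
  have s5 : 0 ≤ 202560 * g ^ 3 * β ^ 6 * A ^ 3 * X2 + 19200 * g ^ 2 * β ^ 3 * A ^ 3 * X1 := by
    positivity
  linarith

end Vale.Agent.P146.U.H94
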