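import Vale.Agent.P146.H604.HRow

/-!
R1, the h-row with the norm: the mean square of a clean column is compared with the square of the
average of the norm `Nm` (`Z = Nm²`). The touch of the norm is controlled by the rate alone.
-/

open MeasureTheory ProbabilityTheory

namespace Vale.Agent.P146.U.H94

open Vale.Agent.P157.Lv Vale.Agent.P146.H712 Vale.Agent.P146.H816 Vale.Agent.P146.H706
  Vale.Agent.P146.H604

set_option linter.unusedSectionVars false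

variable {ι : Type} [Fintype ι] [DecidableEq ι] {q : Type} [Fintype q] [DecidableEq q]
  {R R' : Finset ι} {ρ : Equiv.Perm ι} {b b' : q} {a d a' d' A A' : (ι → ℝ) → q → ℝ}
  {p Z Nm : (ι → ℝ) → ℝ} {M δ ζ lam : ℝ}

/-- The bounds which are needed for a pair of sites: moments `M`, touches `δ` of the columns and
`ζ` of the norm `Nm`, changes of law `lam`. -/
structure HpN (p : (ι → ℝ) → ℝ) (S : Finset ι) (A A' a a' : (ι → ℝ) → q → ℝ)
    (Z Nm : (ι → ℝ) → ℝ) (M δ ζ lam : ℝ) : Prop where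
  ep : EG p
  p0 : ∀ z, 0 ≤ p z
  eA : ∀ i, EG fun z => A z i
  eA' : ∀ i, EG fun z => A' z i
  ea : ∀ i, EG fun z => a z i
  ea' : ∀ i, EG fun z => a' z i
  eZ : EG Z
  eN : EG Nm
  N0 : ∀ z, 0 ≤ Nm z
  ZN : ∀ z, Z z = Nm z ^ 2
  mA : ∫ z, Av S p z * vs (A z) ^ 3 ∂(gI ι) ≤ M
  mA' : ∫ z, Av S p z * vs (A' z) ^ 3 ∂(gI ι) ≤ M
  ma : ∫ z, Av S p z * vs (a z) ^ 3 ∂(gI ι) ≤ M
  ma' : ∫ z, Av S p z * vs (a' z) ^ 3 ∂(gI ι) ≤ M
  mZ : ∫ z, Av S p z * Z z ^ 3 ∂(gI ι) ≤ M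
  hδ : 0 ≤ δ
  hζ : 0 ≤ ζ
  dA : ∫ z, Av S p z * vs (A z - a z) ∂(gI ι) ≤ δ ^ 2
  dA' : ∫ z, Av S p z * vs (A' z - a' z) ∂(gI ι) ≤ δ ^ 2
  dN : ∫ z, Av S p z * (Nm z - Av S Nm z) ^ 2 ∂(gI ι) ≤ ζ ^ 2
  l1 : ∫ z, Av S p z * (vs (A z) * vs (A' z)) ∂(gI ι) ≤
    ∫ z, p z * (vs (A z) * vs (A' z)) ∂(gI ι) + lam
  l2 : ∫ z, p z * (vs (A z) * Z z) ∂(gI ι) ≤ ∫ z, Av S p z * (vs (A z) * Z z) ∂(gI ι) + lam
  l3 : ∫ z, Av S p z * Z z ^ 2 ∂(gI ι) ≤ ∫ z, p z * Z z ^ 2 ∂(gI ι) + lam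

/-- the law of the bulk -/
lemma bulk_int (hp : EG p) {S : Finset ι} {f : (ι → ℝ) → ℝ} (hf : EG f) (hi : Ind S f) :
    ∫ z, p z * f z ∂(gI ι) = ∫ z, Av S p z * f z ∂(gI ι) := by
  have e1 : ∫ z, p z * f z ∂(gI ι) = ∫ z, Av S (fun z => f z * p z) z ∂(gI ι) := by
    rw [integral_Av S (hf.mul hp)]
    exact integral_congr_ae (Filter.Eventually.of_forall fun z => by simp only; ring)
  rw [e1]
  refine integral_congr_ae (Filter.Eventually.of_forall fun z => ?_)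
  simp only
  rw [Av_mul hi]
  ring

/-- **One pair.** -/
theorem hrow_pairN (h : Two R R' ρ b b' a d a' d') (hb : b ≠ b') (h1 : ∀ z, a z b = 1)
    (h1' : ∀ z, a' z b' = 1) (hP : HpN p (R ∪ R') A A' a a' Z Nm M δ ζ lam) :
    ∫ z, p z * ((1 + eF (R ∪ R') b b' a z) - Av (R ∪ R') Nm z ^ 2) ^ 2 ∂(gI ι) ≤
      ∫ z, p z * (vs (A z) * vs (A' z) - 2 * (vs (A z) * Z z) + Z z ^ 2) ∂(gI ι) +
        (4 * lam + 8 * (δ * √M) + 4 * (ζ * √M)) := by
  set S := R ∪ R' with hS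
  set φ := Av S p with hφ
  set g : (ι → ℝ) → ℝ := fun z => 1 + eF S b b' a z with hg
  obtain ⟨Zb, hZbd⟩ : ∃ Zb : (ι → ℝ) → ℝ, Zb = fun z => Av S Nm z ^ 2 := ⟨_, rfl⟩
  have hφe : EG φ := eg_Av S hP.ep
  have hφ0 : ∀ z, 0 ≤ φ z := fun z => H816.Av_nonneg hP.p0 z
  have hφi : Ind S φ := ind_Av S _
  have hNb : EG (Av S Nm) := eg_Av S hP.eN
  have hNbi : Ind S (Av S Nm) := ind_Av S _
  have hNb0 : ∀ z, 0 ≤ Av S Nm z := fun z => H816.Av_nonneg hP.N0 z
  have hZb : EG Zb := by rw [hZbd]; exact hNb.pow 2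
  have hge : EG g := (EG.const 1).add (eg_eF S hP.ea)
  have hgi : Ind S g := by
    intro z w
    have := ind_eF (b := b) (b' := b') (a := a) S z w
    simp only [hg, this]
  have hZi : Ind S Zb := by
    intro z w
    rw [hZbd]
    simp only
    rw [hNbi]
  have Zb0 : ∀ z, 0 ≤ Zb z := fun z => by rw [hZbd]; exact sq_nonneg _
  -- `Zb ≤ Av Z`
  have hZN : Z = fun z => Nm z ^ 2 := funext hP.ZN
  have hZbZ : ∀ z, Zb z ≤ Av S Z z := by
    intro z
    rw [hZbd, hZN]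
    exact Av_sq_le hP.eN z
  have hZ0 : ∀ z, 0 ≤ Z z := fun z => by rw [hP.ZN]; exact sq_nonneg _
  have eX : EG fun z => vs (A z) := eg_vs hP.eA
  have eX' : EG fun z => vs (A' z) := eg_vs hP.eA'
  have ex : EG fun z => vs (a z) := eg_vs hP.ea
  have ex' : EG fun z => vs (a' z) := eg_vs hP.ea'
  have hgoal : ∫ z, p z * ((1 + eF S b b' a z) - Av S Nm z ^ 2) ^ 2 ∂(gI ι) =
      ∫ z, p z * (g z - Zb z) ^ 2 ∂(gI ι) := by rw [hZbd]
  -- to the law with Gaussian rows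
  have s1 : ∫ z, p z * (g z - Zb z) ^ 2 ∂(gI ι) = ∫ z, φ z * (g z - Zb z) ^ 2 ∂(gI ι) := by
    have hi : Ind S fun z => (g z - Zb z) ^ 2 := by
      intro z w
      simp only
      rw [hgi, hZi]
    exact bulk_int hP.ep ((hge.sub hZb).pow 2) hi
  -- expand
  have s2 : ∫ z, φ z * (g z - Zb z) ^ 2 ∂(gI ι) =
      ∫ z, φ z * g z ^ 2 ∂(gI ι) - 2 * ∫ z, φ z * (g z * Zb z) ∂(gI ι) +
        ∫ z, φ z * Zb z ^ 2 ∂(gI ι) := by
    rw [← cmul_dm, ← sub_dm hφe (hge.pow 2) ((hge.mul hZb).const_mul 2),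
      ← add_dm hφe ((hge.pow 2).sub ((hge.mul hZb).const_mul 2)) (hZb.pow 2)]
    exact integral_congr_ae (Filter.Eventually.of_forall fun z => by simp only; ring)
  -- moments
  have := finite_dm hφe
  have sA := s6_of hφe hφ0 hP.eA hP.mA
  have sA' := s6_of hφe hφ0 hP.eA' hP.mA'
  have sa := s6_of hφe hφ0 hP.ea hP.ma
  have sa' := s6_of hφe hφ0 hP.ea' hP.ma'
  have lA := l2d_of hφe hφ0 hP.eA hP.ea hP.hδ hP.dA
  have lA' := l2d_of hφe hφ0 hP.eA' hP.ea' hP.hδ hP.dA'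
  have e : ∀ f : (ι → ℝ) → ℝ, ∫ z, f z ∂(dm φ) = ∫ z, φ z * f z ∂(gI ι) :=
    integral_dm hφe hφ0
  have dpvs : ∀ u : q → ℝ, H706.dp u u = vs u := fun u => by
    unfold H706.dp vs
    exact Finset.sum_congr rfl fun i _ => by ring
  have hM0 : 0 ≤ M := le_trans (integral_nonneg fun z => mul_nonneg (hφ0 z)
    (pow_nonneg (vs_nonneg _) 3)) hP.mA
  have mZA : ∫ z, φ z * Av S Z z ^ 3 ∂(gI ι) ≤ M := by
    refine le_trans ?_ hP.mZ
    rw [H816.integral_mul_Av (F := fun z => Z z ^ 3) hφe (hP.eZ.pow 3) hφi]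
    exact mono_dm hφe hφ0 ((eg_Av S hP.eZ).pow 3) (eg_Av S (hP.eZ.pow 3)) fun z =>
      Av_cube hP.eZ hZ0 z
  have mZb : ∫ z, φ z * Zb z ^ 3 ∂(gI ι) ≤ M :=
    (mono_dm hφe hφ0 (hZb.pow 3) ((eg_Av S hP.eZ).pow 3) fun z =>
      pow_le_pow_left₀ (Zb0 z) (hZbZ z) 3).trans mZA
  -- the square of the clean mean
  have s3 : ∫ z, φ z * g z ^ 2 ∂(gI ι) ≤
      ∫ z, p z * (vs (A z) * vs (A' z)) ∂(gI ι) + lam + 4 * (δ * √M) := by
    have e1 : ∫ z, φ z * g z ^ 2 ∂(gI ι) = ∫ z, φ z * (vs (a z) * vs (a' z)) ∂(gI ι) := by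
      rw [H816.integral_mul_Av (F := fun z => vs (a z) * vs (a' z)) hφe (ex.mul ex') hφi]
      refine integral_congr_ae (Filter.Eventually.of_forall fun z => ?_)
      simp only
      rw [(clean_two h hb h1 h1' z).1]
    have e2 := (repl sA sA sA' sA' sa sa sa' sa' lA lA lA' lA').2.2
    rw [e, e] at e2
    simp only [dpvs] at e2
    rw [e1]
    have e3 := (abs_le.1 e2).1
    linarith [hP.l1]
  -- mixed moments
  have hmix : ∀ {u : (ι → ℝ) → q → ℝ} {f : (ι → ℝ) → ℝ}, (∀ i, EG fun z => u z i) → EG f →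
      (∀ z, 0 ≤ f z) → ∫ z, φ z * vs (u z) ^ 3 ∂(gI ι) ≤ M →
      ∫ z, φ z * f z ^ 3 ∂(gI ι) ≤ M → ∫ z, φ z * (vs (u z) * f z ^ 2) ∂(gI ι) ≤ M := by
    intro u f hu hf hf0 hm hmf
    have eu : EG fun z => vs (u z) := eg_vs hu
    have k1 : ∫ z, φ z * (vs (u z) * f z ^ 2) ∂(gI ι) ≤
        ∫ z, φ z * ((1 / 3) * vs (u z) ^ 3 + (2 / 3) * f z ^ 3) ∂(gI ι) := by
      refine mono_dm hφe hφ0 (eu.mul (hf.pow 2))
        (((eu.pow 3).const_mul _).add ((hf.pow 3).const_mul _)) fun z => ?_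
      have k2 := vs_nonneg (u z)
      have k3 := hf0 z
      nlinarith [mul_nonneg (sq_nonneg (vs (u z) - f z))
        (by linarith : 0 ≤ vs (u z) + 2 * f z)]
    rw [add_dm hφe ((eu.pow 3).const_mul _) ((hf.pow 3).const_mul _), cmul_dm, cmul_dm] at k1
    linarith
  have hmix' : ∀ {f : (ι → ℝ) → ℝ}, EG f →
      (∀ z, 0 ≤ f z) → ∫ z, φ z * f z ^ 3 ∂(gI ι) ≤ M →
      ∫ z, φ z * (vs (A z) ^ 2 * f z) ∂(gI ι) ≤ M := by
    intro f hf hf0 hmf
    have k1 : ∫ z, φ z * (vs (A z) ^ 2 * f z) ∂(gI ι) ≤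
        ∫ z, φ z * ((2 / 3) * vs (A z) ^ 3 + (1 / 3) * f z ^ 3) ∂(gI ι) := by
      refine mono_dm hφe hφ0 ((eX.pow 2).mul hf)
        (((eX.pow 3).const_mul _).add ((hf.pow 3).const_mul _)) fun z => ?_
      have k2 := vs_nonneg (A z)
      have k3 := hf0 z
      nlinarith [mul_nonneg (sq_nonneg (vs (A z) - f z))
        (by linarith : 0 ≤ 2 * vs (A z) + f z)]
    rw [add_dm hφe ((eX.pow 3).const_mul _) ((hf.pow 3).const_mul _), cmul_dm, cmul_dm] at k1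
    linarith [hP.mA]
  -- the mixed term
  have s4 : ∫ z, p z * (vs (A z) * Z z) ∂(gI ι) ≤
      ∫ z, φ z * (g z * Zb z) ∂(gI ι) + lam + 2 * (ζ * √M) + 2 * (δ * √M) := by
    have e1 : ∫ z, φ z * (g z * Zb z) ∂(gI ι) = ∫ z, φ z * (vs (a z) * Zb z) ∂(gI ι) := by
      have h2 : ∫ z, φ z * (vs (a z) * Zb z) ∂(gI ι) =
          ∫ z, (φ z * Zb z) * vs (a z) ∂(gI ι) :=
        integral_congr_ae (Filter.Eventually.of_forall fun z => by simp only; ring)
      have h3 : Ind S fun z => φ z * Zb z := by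
        intro z w
        simp only
        rw [hφi, hZi]
      rw [h2, H816.integral_mul_Av (F := fun z => vs (a z)) (hφe.mul hZb) ex h3]
      refine integral_congr_ae (Filter.Eventually.of_forall fun z => ?_)
      simp only
      rw [(clean_two h hb h1 h1' z).2]
      ring
    -- `Z` to `Zb`
    have e2 : ∫ z, φ z * (vs (A z) * (Z z - Zb z)) ∂(gI ι) ≤ 2 * (ζ * √M) := by
      have k0 : ∀ z, vs (A z) * (Z z - Zb z) =
          (Nm z - Av S Nm z) * (vs (A z) * (Nm z + Av S Nm z)) := by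
        intro z
        rw [hZbd, hP.ZN]
        ring
      have eD : EG fun z => Nm z - Av S Nm z := hP.eN.sub hNb
      have eP : EG fun z => vs (A z) * (Nm z + Av S Nm z) := eX.mul (hP.eN.add hNb)
      have k1 := (le_abs_self _).trans (cs_dm hφe hφ0 eD eP)
      have k2 : ∫ z, φ z * (vs (A z) * (Nm z + Av S Nm z)) ^ 2 ∂(gI ι) ≤ 4 * M := by
        have k3 : ∫ z, φ z * (vs (A z) * (Nm z + Av S Nm z)) ^ 2 ∂(gI ι) ≤
            ∫ z, φ z * (2 * (vs (A z) ^ 2 * Z z) + 2 * (vs (A z) ^ 2 * Zb z)) ∂(gI ι) := by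
          refine mono_dm hφe hφ0 (eP.pow 2) ((((eX.pow 2).mul hP.eZ).const_mul _).add
            (((eX.pow 2).mul hZb).const_mul _)) fun z => ?_
          rw [hP.ZN, hZbd]
          simp only
          nlinarith [mul_nonneg (sq_nonneg (vs (A z))) (sq_nonneg (Nm z - Av S Nm z))]
        rw [add_dm hφe (((eX.pow 2).mul hP.eZ).const_mul _) (((eX.pow 2).mul hZb).const_mul _),
          cmul_dm, cmul_dm] at k3
        linarith [hmix' hP.eZ hZ0 hP.mZ, hmix' hZb Zb0 mZb]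
      have k4 : √(4 * M) = 2 * √M := by
        rw [Real.sqrt_mul (by norm_num : (0 : ℝ) ≤ 4)]
        congr 1
        rw [show (4 : ℝ) = 2 ^ 2 by norm_num]
        exact Real.sqrt_sq (by norm_num)
      have k5 : √(∫ z, φ z * (Nm z - Av S Nm z) ^ 2 ∂(gI ι)) ≤ ζ :=
        (Real.sqrt_le_sqrt hP.dN).trans_eq (Real.sqrt_sq hP.hζ)
      have k6 : √(∫ z, φ z * (vs (A z) * (Nm z + Av S Nm z)) ^ 2 ∂(gI ι)) ≤ 2 * √M :=
        (Real.sqrt_le_sqrt k2).trans_eq k4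
      have k7 : ∫ z, φ z * (vs (A z) * (Z z - Zb z)) ∂(gI ι) =
          ∫ z, φ z * ((Nm z - Av S Nm z) * (vs (A z) * (Nm z + Av S Nm z))) ∂(gI ι) :=
        integral_congr_ae (Filter.Eventually.of_forall fun z => by simp only; rw [k0])
      rw [k7]
      refine k1.trans ((mul_le_mul k5 k6 (Real.sqrt_nonneg _) hP.hζ).trans (le_of_eq ?_))
      ring
    have e3 : ∫ z, φ z * (vs (A z) * (Z z - Zb z)) ∂(gI ι) =
        ∫ z, φ z * (vs (A z) * Z z) ∂(gI ι) - ∫ z, φ z * (vs (A z) * Zb z) ∂(gI ι) := by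
      rw [← sub_dm hφe (eX.mul hP.eZ) (eX.mul hZb)]
      exact integral_congr_ae (Filter.Eventually.of_forall fun z => by simp only; ring)
    -- the full column to the clean one
    have e4 : |∫ z, φ z * (vs (A z) * Zb z - vs (a z) * Zb z) ∂(gI ι)| ≤
        2 * (δ * √M) := by
      have k1 : ∀ z, vs (A z) - vs (a z) = H706.dp (A z - a z) (A z + a z) := by
        intro z
        unfold vs H706.dp
        rw [← Finset.sum_sub_distrib]
        refine Finset.sum_congr rfl fun i _ => ?_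
        simp only [Pi.sub_apply, Pi.add_apply]
        ring
      have k2 : ∀ z, |vs (A z) * Zb z - vs (a z) * Zb z| ≤
          √(vs (A z - a z)) * √(vs (A z + a z) * Zb z ^ 2) := by
        intro z
        rw [← Real.sqrt_mul (vs_nonneg _)]
        refine Real.abs_le_sqrt ?_
        have k3 : vs (A z) * Zb z - vs (a z) * Zb z =
            H706.dp (A z - a z) (A z + a z) * Zb z := by rw [← k1]; ring
        rw [k3, mul_pow]
        have k4 := H706.dp_sq_le (A z - a z) (A z + a z)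
        nlinarith [mul_le_mul_of_nonneg_right k4 (sq_nonneg (Zb z))]
      have eD : EG fun z => vs (A z - a z) := eg_vs fun i => (hP.eA i).sub (hP.ea i)
      have eP : EG fun z => vs (A z + a z) := eg_vs fun i => (hP.eA i).add (hP.ea i)
      have hint1 := int_dm hφe hφ0 eD
      have hint2 := int_dm hφe hφ0 (eP.mul (hZb.pow 2))
      have k5 : |∫ z, φ z * (vs (A z) * Zb z - vs (a z) * Zb z) ∂(gI ι)| ≤
          √(∫ z, vs (A z - a z) ∂(dm φ)) * √(∫ z, vs (A z + a z) * Zb z ^ 2 ∂(dm φ)) := by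
        have hm1 : Measurable fun z => √(vs (A z - a z)) := eD.meas.sqrt
        have hm2 : Measurable fun z => √(vs (A z + a z) * Zb z ^ 2) :=
          (eP.mul (hZb.pow 2)).meas.sqrt
        have q1 : ∀ z, √(vs (A z - a z)) ^ 2 = vs (A z - a z) := fun z =>
          Real.sq_sqrt (vs_nonneg _)
        have q2 : ∀ z, √(vs (A z + a z) * Zb z ^ 2) ^ 2 = vs (A z + a z) * Zb z ^ 2 :=
          fun z => Real.sq_sqrt (mul_nonneg (vs_nonneg _) (sq_nonneg _))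
        obtain ⟨j1, j2⟩ := int_mul_le (P := dm φ) hm1 hm2 (by simp only [q1]; exact hint1)
          (by simp only [q2]; exact hint2)
        simp only [q1, q2] at j2
        refine le_trans ?_ ((le_abs_self _).trans j2)
        rw [← e]
        refine (abs_integral_le_integral_abs).trans ?_
        exact integral_mono (int_dm hφe hφ0 ((eX.mul hZb).sub (ex.mul hZb))).abs j1 k2
      refine k5.trans ?_
      rw [e, e]
      have k6 : ∫ z, φ z * (vs (A z + a z) * Zb z ^ 2) ∂(gI ι) ≤ 4 * M := by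
        have k7 : ∫ z, φ z * (vs (A z + a z) * Zb z ^ 2) ∂(gI ι) ≤
            ∫ z, φ z * (2 * (vs (A z) * Zb z ^ 2) + 2 * (vs (a z) * Zb z ^ 2)) ∂(gI ι) := by
          refine mono_dm hφe hφ0 (eP.mul (hZb.pow 2)) (((eX.mul (hZb.pow 2)).const_mul _).add
            ((ex.mul (hZb.pow 2)).const_mul _)) fun z => ?_
          have k8 : vs (A z + a z) ≤ 2 * vs (A z) + 2 * vs (a z) := by
            have := vs_sub_le (A z) (-a z)
            rw [sub_neg_eq_add] at this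
            have k9 : vs (-a z) = vs (a z) := by
              unfold vs
              exact Finset.sum_congr rfl fun i _ => by simp
            rwa [k9] at this
          nlinarith [mul_le_mul_of_nonneg_right k8 (sq_nonneg (Zb z))]
        rw [add_dm hφe ((eX.mul (hZb.pow 2)).const_mul _) ((ex.mul (hZb.pow 2)).const_mul _),
          cmul_dm, cmul_dm] at k7
        linarith [hmix hP.eA hZb Zb0 hP.mA mZb, hmix hP.ea hZb Zb0 hP.ma mZb]
      have k10 : √(4 * M) = 2 * √M := by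
        rw [Real.sqrt_mul (by norm_num : (0 : ℝ) ≤ 4)]
        congr 1
        rw [show (4 : ℝ) = 2 ^ 2 by norm_num]
        exact Real.sqrt_sq (by norm_num)
      calc √(∫ z, φ z * vs (A z - a z) ∂(gI ι)) *
            √(∫ z, φ z * (vs (A z + a z) * Zb z ^ 2) ∂(gI ι))
          ≤ δ * (2 * √M) := by
            refine mul_le_mul ((Real.sqrt_le_sqrt hP.dA).trans_eq (Real.sqrt_sq hP.hδ)) ?_
              (Real.sqrt_nonneg _) hP.hδ
            exact (Real.sqrt_le_sqrt k6).trans_eq k10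
        _ = 2 * (δ * √M) := by ring
    rw [sub_dm hφe (eX.mul hZb) (ex.mul hZb)] at e4
    rw [e1]
    rw [e3] at e2
    have e6 := (abs_le.1 e4).2
    linarith [hP.l2]
  have s5 : ∫ z, φ z * Zb z ^ 2 ∂(gI ι) ≤ ∫ z, p z * Z z ^ 2 ∂(gI ι) + lam := by
    refine le_trans ?_ hP.l3
    rw [H816.integral_mul_Av (F := fun z => Z z ^ 2) hφe (hP.eZ.pow 2) hφi]
    refine mono_dm hφe hφ0 (hZb.pow 2) (eg_Av S (hP.eZ.pow 2)) fun z => ?_
    exact (pow_le_pow_left₀ (Zb0 z) (hZbZ z) 2).trans (Av_sq_le hP.eZ z)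
  have s6 : ∫ z, p z * (vs (A z) * vs (A' z) - 2 * (vs (A z) * Z z) + Z z ^ 2) ∂(gI ι) =
      ∫ z, p z * (vs (A z) * vs (A' z)) ∂(gI ι) - 2 * ∫ z, p z * (vs (A z) * Z z) ∂(gI ι) +
        ∫ z, p z * Z z ^ 2 ∂(gI ι) := by
    rw [← cmul_dm, ← sub_dm hP.ep (eX.mul eX') ((eX.mul hP.eZ).const_mul 2),
      ← add_dm hP.ep ((eX.mul eX').sub ((eX.mul hP.eZ).const_mul 2)) (hP.eZ.pow 2)]
  rw [hgoal, s1, s2, s6]
  linarith

/-- the variance of the norm over the rows -/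
theorem var_pairN {S : Finset ι} (hP : HpN p S A A' a a' Z Nm M δ ζ lam) :
    ∫ z, p z * (Av S Z z - Av S Nm z ^ 2) ∂(gI ι) ≤ ζ ^ 2 := by
  have hφe : EG (Av S p) := eg_Av S hP.ep
  have hφi : Ind S (Av S p) := ind_Av S _
  have hNb : EG (Av S Nm) := eg_Av S hP.eN
  have hNbi : Ind S (Av S Nm) := ind_Av S _
  have hZ : EG (Av S Z) := eg_Av S hP.eZ
  have hi : Ind S fun z => Av S Z z - Av S Nm z ^ 2 := by
    intro z w
    simp only
    rw [ind_Av S Z, hNbi]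
  rw [bulk_int hP.ep (hZ.sub (hNb.pow 2)) hi]
  refine le_trans (le_of_eq ?_) hP.dN
  have eD : EG fun z => (Nm z - Av S Nm z) ^ 2 := (hP.eN.sub hNb).pow 2
  rw [H816.integral_mul_Av (F := fun z => (Nm z - Av S Nm z) ^ 2) hφe eD hφi]
  refine integral_congr_ae (Filter.Eventually.of_forall fun z => ?_)
  simp only
  congr 1
  have hZN : Z = fun z => Nm z ^ 2 := funext hP.ZN
  have e1 : (fun z => (Nm z - Av S Nm z) ^ 2) =
      fun z => (fun z => Z z - Av S Nm z * (2 * Nm z)) z + (fun z => Av S Nm z ^ 2 * 1) z := by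
    funext z
    simp only [hZN]
    ring
  have h2 : Ind S fun z => Av S Nm z ^ 2 := by
    intro z w
    simp only
    rw [hNbi]
  rw [e1, H816.Av_add (hP.eZ.sub (hNb.mul (hP.eN.const_mul 2))) ((hNb.pow 2).mul (EG.const 1))]
  rw [Av_mul h2, H816.Av_const]
  have e2 : Av S (fun z => Z z - Av S Nm z * (2 * Nm z)) z =
      Av S Z z - Av S Nm z * (2 * Av S Nm z) := by
    have e3 : (fun z => Z z - Av S Nm z * (2 * Nm z)) =
        fun z => Z z + (fun z => Av S Nm z * (-2 * Nm z)) z := by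
      funext z
      simp only
      ring
    rw [e3, H816.Av_add hP.eZ (hNb.mul (hP.eN.const_mul (-2))), Av_mul hNbi]
    have e4 : Av S (fun z => -2 * Nm z) z = -2 * Av S Nm z := by
      have h5 : Ind S fun _ : ι → ℝ => (-2 : ℝ) := fun _ _ => rfl
      exact Av_mul h5 Nm z
    rw [e4]
    ring
  rw [e2]
  ring

/-- **One pair, the truncated square.** -/
theorem hrow_pairT (h : Two R R' ρ b b' a d a' d') (hb : b ≠ b') (h1 : ∀ z, a z b = 1)
    (h1' : ∀ z, a' z b' = 1) (hP : HpN p (R ∪ R') A A' a a' Z Nm M δ ζ lam) {l : ℝ} (hl : 0 < l) :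
    ∫ z, p z * min 1 (((1 + eF (R ∪ R') b b' a z) - Av (R ∪ R') Z z) ^ 2 / l ^ 2) ∂(gI ι) ≤
      2 / l ^ 2 * (∫ z, p z * (vs (A z) * vs (A' z) - 2 * (vs (A z) * Z z) + Z z ^ 2) ∂(gI ι) +
        (4 * lam + 8 * (δ * √M) + 4 * (ζ * √M))) + 2 / l * ζ ^ 2 := by
  obtain ⟨S, hS⟩ : ∃ S, S = R ∪ R' := ⟨_, rfl⟩
  have k1 := hrow_pairN h hb h1 h1' hP
  have k2 := var_pairN hP
  rw [← hS] at k1 k2 ⊢
  have eg : EG fun z => 1 + eF S b b' a z := (EG.const 1).add (eg_eF S hP.ea)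
  have eZ : EG (Av S Z) := eg_Av S hP.eZ
  have eN : EG fun z => Av S Nm z ^ 2 := (eg_Av S hP.eN).pow 2
  have eq : EG fun z => ((1 + eF S b b' a z) - Av S Z z) ^ 2 / l ^ 2 := by
    have := ((eg.sub eZ).pow 2).const_mul (1 / l ^ 2)
    refine this.mono (by
      have h2 : Measurable fun z => ((1 + eF S b b' a z) - Av S Z z) ^ 2 := ((eg.sub eZ).pow 2).meas
      exact h2.div_const _) fun z => le_of_eq ?_
    congr 1
    ring
  have em : EG fun z => min 1 (((1 + eF S b b' a z) - Av S Z z) ^ 2 / l ^ 2) := by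
    refine EG.of_bdd (C := 1) (measurable_const.min eq.meas) fun z => ?_
    rw [abs_of_nonneg (le_min zero_le_one (by positivity))]
    exact min_le_left _ _
  have hv0 : ∀ z, 0 ≤ Av S Z z - Av S Nm z ^ 2 := by
    intro z
    have hZN : Z = fun z => Nm z ^ 2 := funext hP.ZN
    have := Av_sq_le (R := S) hP.eN z
    rw [hZN]
    linarith
  have hl2 : 0 < l ^ 2 := by positivity
  have k3 : ∫ z, p z * min 1 (((1 + eF S b b' a z) - Av S Z z) ^ 2 / l ^ 2) ∂(gI ι) ≤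
      ∫ z, p z * (2 / l ^ 2 * (((1 + eF S b b' a z) - Av S Nm z ^ 2) ^ 2) +
        2 / l * (Av S Z z - Av S Nm z ^ 2)) ∂(gI ι) := by
    refine mono_dm hP.ep hP.p0 em ((((eg.sub eN).pow 2).const_mul _).add
      ((eZ.sub eN).const_mul _)) fun z => ?_
    have hv := hv0 z
    obtain ⟨v, hvd⟩ : ∃ v, v = Av S Z z - Av S Nm z ^ 2 := ⟨_, rfl⟩
    obtain ⟨u, hud⟩ : ∃ u, u = (1 + eF S b b' a z) - Av S Nm z ^ 2 := ⟨_, rfl⟩
    have e1 : (1 + eF S b b' a z) - Av S Z z = u - v := by rw [hvd, hud]; ring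
    rw [e1, ← hvd, ← hud]
    rw [← hvd] at hv
    have e2 : 2 / l ^ 2 * u ^ 2 + 2 / l * v = (2 * u ^ 2 + 2 * (l * v)) / l ^ 2 := by
      field_simp
    rw [e2]
    rcases le_total v l with hc | hc
    · refine (min_le_right _ _).trans ?_
      rw [div_le_div_iff_of_pos_right hl2]
      nlinarith [sq_nonneg (u + v), mul_nonneg hv (sub_nonneg.2 hc)]
    · refine (min_le_left _ _).trans ?_
      rw [le_div_iff₀ hl2]
      nlinarith [sq_nonneg u]
  rw [add_dm hP.ep (((eg.sub eN).pow 2).const_mul _) ((eZ.sub eN).const_mul _), cmul_dm,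
    cmul_dm] at k3
  have k4 := mul_le_mul_of_nonneg_left k1 (by positivity : 0 ≤ 2 / l ^ 2)
  have k5 := mul_le_mul_of_nonneg_left k2 (by positivity : 0 ≤ 2 / l)
  linarith

/-- **The h-row**, summed over the ordered pairs of sites. -/
theorem hrow_sumT {Rb : q → Finset ι} {ρ : q → q → Equiv.Perm ι} {A : q → (ι → ℝ) → q → ℝ}
    {a d : q → q → (ι → ℝ) → q → ℝ} {M δ ζ lam : q → q → ℝ} (hp : EG p)
    (hA : ∀ b i, EG fun z => A b z i) (hZe : EG Z)
    (hT : ∀ b b', b ≠ b' → Two (Rb b) (Rb b') (ρ b b') b b' (a b b') (d b b') (a b' b) (d b' b))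
    (h1 : ∀ b b', b ≠ b' → ∀ z, a b b' z b = 1)
    (hP : ∀ b b', b ≠ b' → HpN p (Rb b ∪ Rb b') (A b) (A b') (a b b') (a b' b) Z Nm (M b b')
      (δ b b') (ζ b b') (lam b b'))
    (hZ : ∀ z, ∑ b, vs (A b z) = (Fintype.card q : ℝ) * Z z) (p0 : ∀ z, 0 ≤ p z) {l : ℝ}
    (hl : 0 < l) :
    ∑ b, ∑ b' ∈ Finset.univ.erase b, ∫ z, p z * min 1 (((1 + eF (Rb b ∪ Rb b') b b' (a b b') z) -
        Av (Rb b ∪ Rb b') Z z) ^ 2 / l ^ 2) ∂(gI ι) ≤
      2 / l ^ 2 * (∑ b, ∑ b' ∈ Finset.univ.erase b,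
        (4 * lam b b' + 8 * (δ b b' * √(M b b')) + 4 * (ζ b b' * √(M b b')))) +
      2 / l * ∑ b, ∑ b' ∈ Finset.univ.erase b, ζ b b' ^ 2 := by
  have h2 : ∀ b, ∀ b' ∈ Finset.univ.erase b,
      ∫ z, p z * min 1 (((1 + eF (Rb b ∪ Rb b') b b' (a b b') z) -
        Av (Rb b ∪ Rb b') Z z) ^ 2 / l ^ 2) ∂(gI ι) ≤
      2 / l ^ 2 * ∫ z, p z * (vs (A b z) * vs (A b' z) - 2 * (vs (A b z) * Z z) + Z z ^ 2) ∂(gI ι)
        + (2 / l ^ 2 * (4 * lam b b' + 8 * (δ b b' * √(M b b')) + 4 * (ζ b b' * √(M b b'))) +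
          2 / l * ζ b b' ^ 2) := by
    intro b b' hb
    have hne : b ≠ b' := fun h => (Finset.mem_erase.1 hb).1 h.symm
    have h3 := hrow_pairT (hT b b' hne) hne (h1 b b' hne) (h1 b' b hne.symm) (hP b b' hne) hl
    linarith
  refine (Finset.sum_le_sum fun b _ => Finset.sum_le_sum (h2 b)).trans ?_
  simp only [Finset.sum_add_distrib, ← Finset.mul_sum]
  have h3 : ∑ b, ∑ b' ∈ Finset.univ.erase b,
      ∫ z, p z * (vs (A b z) * vs (A b' z) - 2 * (vs (A b z) * Z z) + Z z ^ 2) ∂(gI ι) ≤ 0 := by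
    have ei : ∀ b b', Integrable (fun z => p z * (vs (A b z) * vs (A b' z) -
        2 * (vs (A b z) * Z z) + Z z ^ 2)) (gI ι) := fun b b' =>
      (hp.mul ((((eg_vs (hA b)).mul (eg_vs (hA b'))).sub
        (((eg_vs (hA b)).mul hZe).const_mul 2)).add (hZe.pow 2))).integrable
    have e1 : ∑ b, ∑ b' ∈ Finset.univ.erase b,
        ∫ z, p z * (vs (A b z) * vs (A b' z) - 2 * (vs (A b z) * Z z) + Z z ^ 2) ∂(gI ι) =
        ∫ z, p z * ∑ b, ∑ b' ∈ Finset.univ.erase b,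
          (vs (A b z) * vs (A b' z) - 2 * (vs (A b z) * Z z) + Z z ^ 2) ∂(gI ι) := by
      simp only [Finset.mul_sum]
      rw [integral_finsetSum _ fun b _ => integrable_finsetSum _ fun b' _ => ei b b']
      refine Finset.sum_congr rfl fun b _ => ?_
      rw [integral_finsetSum _ fun b' _ => ei b b']
    rw [e1]
    refine integral_nonpos fun z => mul_nonpos_of_nonneg_of_nonpos (p0 z) ?_
    exact sum_pairs_nonpos (hZ z)
  have h4 := mul_nonpos_of_nonneg_of_nonpos (by positivity : 0 ≤ 2 / l ^ 2) h3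
  linarith

end Vale.Agent.P146.U.H94
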